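import Vale.Agent.P052.Geom

/-! Borsuk's conjecture fails in dimension 63: a finite set in `ℝ^63` of positive diameter is not a
union of 64 subsets of strictly smaller diameter. -/

namespace Vale.Agent.Results.P052.BorsukSixtyThree

open Vale.Agent.P052 in
theorem result :
    ∃ Y : Set (EuclideanSpace ℝ (Fin 63)), Y.Finite ∧ 0 < Metric.diam Y ∧
      ∀ P : Fin 64 → Set (EuclideanSpace ℝ (Fin 63)), (⋃ i, P i) = Y →
        ∃ i, Metric.diam Y ≤ Metric.diam (P i) := by
  refine ⟨configY, configY_finite, ?_, ?_⟩
  · rw [diam_eq]; exact dd_pos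
  · intro P hP
    by_contra hc
    push Not at hc
    exact no_cover P hP hc

end Vale.Agent.Results.P052.BorsukSixtyThree
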